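import Vale.Agent.P182.H578.Der

/-!
# The flow preserves both conditions on the auxiliary families

Note 20164 (3), (4) of helper181 / note 20078 of helper563.
-/

namespace Vale.Agent.P182.H181

open Module Matrix Vale.Agent.P182.H533 Vale.Agent.P182.B1 Vale.Agent.P182.H922
  Vale.Agent.P182.H578

section base

variable {L V J : Type*} [Field L] [AddCommGroup V] [Module L V]
  [Fintype J] [DecidableEq J] {𝒟 : Cfg L V J}

/-- the variation of the mixed operators -/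
theorem conn_opr (hG : 𝒟.Good) (n : H533.Conn 𝒟.q) {X B : End L V} (hX : IsSk 𝒟.q X)
    {t R r r' : J → V} {a : Fin 3}
    (h1 : ∀ l, 𝒟.arm l = a → n.δ (t l) = X (t l) + R l)
    (h2 : ∀ l, 𝒟.arm l = a → n.δ (𝒟.om t l) = X (𝒟.om t l) + 𝒟.om R l)
    (h3 : ∀ l, 𝒟.arm l = a → n.δ (r l) = X (r l) + (r' l + B (t l)))
    (h4 : ∀ l, 𝒟.arm l = a → n.δ (𝒟.om r l) = X (𝒟.om r l) + (𝒟.om r' l + B (𝒟.om t l)))
    (v : V) :
    n.δ (opr 𝒟.q (Tt L r) (Gm 𝒟.arm 𝒟.Ω a) (Tt L t) v) =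
      opr 𝒟.q (Tt L r) (Gm 𝒟.arm 𝒟.Ω a) (Tt L t) (n.δ v) +
      (X (opr 𝒟.q (Tt L r) (Gm 𝒟.arm 𝒟.Ω a) (Tt L t) v) -
        opr 𝒟.q (Tt L r) (Gm 𝒟.arm 𝒟.Ω a) (Tt L t) (X v)) +
      (opr 𝒟.q (Tt L r') (Gm 𝒟.arm 𝒟.Ω a) (Tt L t) v + B (Res 𝒟 t a v) +
        opr 𝒟.q (Tt L r) (Gm 𝒟.arm 𝒟.Ω a) (Tt L R) v) := by
  rw [Res_apply 𝒟 hG.skew, opr_Tt 𝒟 hG.skew, opr_Tt 𝒟 hG.skew, opr_Tt 𝒟 hG.skew,
    opr_Tt 𝒟 hG.skew, opr_Tt 𝒟 hG.skew, map_sum, map_sum, map_sum, ← Finset.sum_sub_distrib,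
    ← Finset.sum_add_distrib, ← Finset.sum_add_distrib, ← Finset.sum_add_distrib,
    ← Finset.sum_add_distrib]
  refine Finset.sum_congr rfl fun l hl => ?_
  have hl' : 𝒟.arm l = a := (Finset.mem_filter.1 hl).2
  rw [map_add, n.smul, n.smul, n.metric, n.metric, h1 l hl', h2 l hl', h3 l hl', h4 l hl']
  have e1 : 𝒟.q (𝒟.om t l) (X v) = - 𝒟.q (X (𝒟.om t l)) v := by rw [hX, neg_neg]
  have e2 : 𝒟.q (t l) (X v) = - 𝒟.q (X (t l)) v := by rw [hX, neg_neg]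
  simp only [map_add, LinearMap.add_apply, map_smul, e1, e2]
  module

omit [DecidableEq J] in
/-- the pairing with the dual families -/
theorem q_om {t R : J → V} {x y : V} (h : ∀ l, 𝒟.q x (R l) = 𝒟.q y (t l)) (l : J) :
    𝒟.q x (𝒟.om R l) = 𝒟.q y (𝒟.om t l) := by
  simp only [Cfg.om, map_sum, map_smul]
  exact Finset.sum_congr rfl fun k _ => by rw [h k]

/-- mixed operators of families related on a vector -/
theorem opr_congr (hG : 𝒟.Good) {t R : J → V} {x y : V} (h : ∀ l, 𝒟.q x (R l) = 𝒟.q y (t l))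
    (r : J → V) (a : Fin 3) :
    opr 𝒟.q (Tt L r) (Gm 𝒟.arm 𝒟.Ω a) (Tt L R) x =
      opr 𝒟.q (Tt L r) (Gm 𝒟.arm 𝒟.Ω a) (Tt L t) y := by
  rw [opr_Tt 𝒟 hG.skew, opr_Tt 𝒟 hG.skew]
  refine Finset.sum_congr rfl fun l _ => ?_
  rw [hG.form.symm _ x, hG.form.symm _ y, hG.form.symm _ x, hG.form.symm _ y, q_om h, h]

/-- the auxiliary class: the family `r` is the image of `t` under the core operator `Γ`,
modulo `I` -/
structure RelG (𝒟 : Cfg L V J) (W I : Submodule L V) (t : J → V) (Γ : End L V)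
    (r : J → V) : Prop where
  mapW : ∀ u ∈ W, Γ u ∈ W
  mapI : ∀ u ∈ I, Γ u ∈ I
  sa : ∀ u ∈ W, ∀ v ∈ W, 𝒟.q (Γ u) v = 𝒟.q u (Γ v)
  comm : ∀ a, ∀ u ∈ W, Γ (Res 𝒟 t a u) - Res 𝒟 t a (Γ u) ∈ I
  one : ∀ u ∈ W, ∀ l, 𝒟.q u (r l) = 𝒟.q (Γ u) (t l)
  two : ∀ a, ∀ u ∈ W,
    opr 𝒟.q (Tt L r) (Gm 𝒟.arm 𝒟.Ω a) (Tt L t) u - Res 𝒟 t a (Γ u) ∈ I

/-- the data of a flow preserving `W` and `I` -/
structure FlowG (𝒟 : Cfg L V J) (W I : Submodule L V) (t : J → V) (n : H533.Conn 𝒟.q)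
    (Y : Fin 3 → End L V) (E : End L V) (R : J → V) : Prop where
  IW : I ≤ W
  perp : ∀ x ∈ I, ∀ w ∈ W, 𝒟.q x w = 0
  SW : ∀ a, ∀ w ∈ W, Res 𝒟 t a w ∈ W
  SI : ∀ a, ∀ w ∈ I, Res 𝒟 t a w ∈ I
  nW : ∀ w ∈ W, n.δ w ∈ W
  nI : ∀ w ∈ I, n.δ w ∈ I
  Ysk : ∀ a, IsSk 𝒟.q (Y a)
  YW : ∀ a, ∀ w ∈ W, Y a w ∈ W
  YI : ∀ a, ∀ w ∈ I, Y a w ∈ I
  YS : ∀ a, ∀ w ∈ W, Y a (Res 𝒟 t a w) - Res 𝒟 t a (Y a w) ∈ I
  t1 : ∀ l, n.δ (t l) = Y (𝒟.arm l) (t l) + R l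
  t2 : ∀ l, n.δ (𝒟.om t l) = Y (𝒟.arm l) (𝒟.om t l) + 𝒟.om R l
  rel : RelG 𝒟 W I t E R

variable {W I : Submodule L V} {t : J → V} {n : H533.Conn 𝒟.q} {Y : Fin 3 → End L V}
  {E : End L V} {R : J → V}

/-- the derivative of the residues, modulo `I` -/
theorem FlowG.nS (hG : 𝒟.Good) (F : FlowG 𝒟 W I t n Y E R) (a : Fin 3) {w : V} (hw : w ∈ W) :
    n.δ (Res 𝒟 t a w) - (Res 𝒟 t a (n.δ w) + (2 : L) • Res 𝒟 t a (E w)) ∈ I := by
  have h1 := conn_Res hG n (F.Ysk a) (t := t) (R := R) (a := a)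
    (fun l hl => by rw [F.t1, hl]) (fun l hl => by rw [F.t2, hl]) w
  have h2 : opr 𝒟.q (Tt L t) (Gm 𝒟.arm 𝒟.Ω a) (Tt L R) w = Res 𝒟 t a (E w) :=
    opr_congr hG (F.rel.one w hw) t a
  rw [h1, h2]
  have h3 := add_mem (F.YS a w hw) (F.rel.two a w hw)
  convert h3 using 1
  module

/-- **Both conditions are preserved by the flow.** -/
theorem RelG.flow (hG : 𝒟.Good) (F : FlowG 𝒟 W I t n Y E R) {Γ : End L V} {r r' : J → V}
    (h : RelG 𝒟 W I t Γ r) (hΓE : ∀ w ∈ W, Γ (E w) - E (Γ w) ∈ I) {B : Fin 3 → End L V}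
    (hB1 : ∀ a x, ∀ w ∈ W, 𝒟.q (B a x) w = 𝒟.q x (Γ (Y a w) - Y a (Γ w)))
    (hB2 : ∀ a, ∀ w ∈ W, B a w - (Γ (Y a w) - Y a (Γ w)) ∈ I)
    (r1 : ∀ l, n.δ (r l) = Y (𝒟.arm l) (r l) + (r' l + B (𝒟.arm l) (t l)))
    (r2 : ∀ l, n.δ (𝒟.om r l) = Y (𝒟.arm l) (𝒟.om r l) +
      (𝒟.om r' l + B (𝒟.arm l) (𝒟.om t l))) :
    RelG 𝒟 W I t (brk n Γ + E * Γ) r' := by
  have ap : ∀ w, (brk n Γ + E * Γ) w = n.δ (Γ w) - Γ (n.δ w) + E (Γ w) := fun w => rfl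
  have hnS : ∀ (a : Fin 3) (w : V), w ∈ W → ∃ i ∈ I,
      n.δ (Res 𝒟 t a w) = (Res 𝒟 t a (n.δ w) + (2 : L) • Res 𝒟 t a (E w)) + i := by
    intro a w hw
    exact ⟨_, F.nS hG a hw, by abel⟩
  -- commutation
  have hc : ∀ (a : Fin 3) (w : V), w ∈ W → (brk n Γ + E * Γ) (Res 𝒟 t a w) -
      Res 𝒟 t a ((brk n Γ + E * Γ) w) ∈ I := by
    intro a w hw
    rw [ap, ap]
    have m1 := F.nI _ (h.comm a w hw)
    obtain ⟨i1, hi1, e1⟩ := hnS a _ (h.mapW w hw)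
    obtain ⟨i2, hi2, e2⟩ := hnS a _ hw
    have m2 := h.comm a _ (F.nW w hw)
    have m3 := h.comm a _ (F.rel.mapW w hw)
    have m4 := F.SI a _ (hΓE w hw)
    have m5 := F.rel.mapI _ (h.comm a w hw)
    have m6 := F.rel.comm a _ (h.mapW w hw)
    rw [map_sub, e1] at m1
    rw [map_sub] at m4 m5
    rw [e2]
    have := add_mem (sub_mem (sub_mem (add_mem m1 hi1) (h.mapI _ hi2)) m2)
      (add_mem (add_mem m5 m6)
        (Submodule.smul_mem I (2 : L) (neg_mem (add_mem m3 m4))))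
    convert this using 1
    simp only [map_add, map_sub, map_smul]
    module
  have h2 : ∀ (a : Fin 3) (w : V), w ∈ W →
      opr 𝒟.q (Tt L r') (Gm 𝒟.arm 𝒟.Ω a) (Tt L t) w -
        (brk n Γ + E * Γ) (Res 𝒟 t a w) ∈ I := by
    intro a w hw
    have hX : ∀ w ∈ W, opr 𝒟.q (Tt L r) (Gm 𝒟.arm 𝒟.Ω a) (Tt L t) w -
        Γ (Res 𝒟 t a w) ∈ I := by
      intro w hw
      have := sub_mem (h.two a w hw) (h.comm a w hw)
      convert this using 1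
      abel
    have key := conn_opr hG n (F.Ysk a) (t := t) (R := R) (r := r) (r' := r') (a := a)
      (B := B a) (fun l hl => by rw [F.t1, hl]) (fun l hl => by rw [F.t2, hl])
      (fun l hl => by rw [r1, hl]) (fun l hl => by rw [r2, hl]) w
    have e1 : opr 𝒟.q (Tt L r) (Gm 𝒟.arm 𝒟.Ω a) (Tt L R) w =
        opr 𝒟.q (Tt L r) (Gm 𝒟.arm 𝒟.Ω a) (Tt L t) (E w) :=
      opr_congr hG (F.rel.one w hw) r a
    rw [e1] at key
    have e2 := conn_Res hG n (F.Ysk a) (t := t) (R := R) (a := a)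
      (fun l hl => by rw [F.t1, hl]) (fun l hl => by rw [F.t2, hl]) w
    have e3 : opr 𝒟.q (Tt L t) (Gm 𝒟.arm 𝒟.Ω a) (Tt L R) w = Res 𝒟 t a (E w) :=
      opr_congr hG (F.rel.one w hw) t a
    rw [e3] at e2
    -- memberships
    have m1 := F.nI _ (hX w hw)
    have m2 := hX _ (F.nW w hw)
    have m3 := F.YI a _ (hX w hw)
    have m4 := hX _ (F.YW a w hw)
    have m5 := hB2 a _ (F.SW a w hw)
    have m6 := hX _ (F.rel.mapW w hw)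
    have m7 := h.mapI _ (F.rel.two a w hw)
    -- `Γ S E = E Γ S`
    have m8 := h.comm a _ (F.rel.mapW w hw)
    have m9 := F.SI a _ (hΓE w hw)
    have m10 := F.rel.comm a _ (h.mapW w hw)
    have m11 := F.rel.mapI _ (h.comm a w hw)
    rw [map_sub] at m1 m3 m7 m9 m11
    have e4 : opr 𝒟.q (Tt L r') (Gm 𝒟.arm 𝒟.Ω a) (Tt L t) w =
        n.δ (opr 𝒟.q (Tt L r) (Gm 𝒟.arm 𝒟.Ω a) (Tt L t) w) -
        opr 𝒟.q (Tt L r) (Gm 𝒟.arm 𝒟.Ω a) (Tt L t) (n.δ w) -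
        (Y a (opr 𝒟.q (Tt L r) (Gm 𝒟.arm 𝒟.Ω a) (Tt L t) w) -
          opr 𝒟.q (Tt L r) (Gm 𝒟.arm 𝒟.Ω a) (Tt L t) (Y a w)) -
        (B a (Res 𝒟 t a w) +
          opr 𝒟.q (Tt L r) (Gm 𝒟.arm 𝒟.Ω a) (Tt L t) (E w)) := by
      rw [key]
      abel
    rw [e4, ap, e2]
    have s1 := add_mem (sub_mem (sub_mem (sub_mem (add_mem (sub_mem m1 m2) m4) m3) m5) m6) m7
    have s2 := sub_mem (sub_mem (add_mem m8 m9) m10) m11
    have := add_mem s1 s2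
    convert this using 1
    simp only [map_add, map_sub]
    module
  refine ⟨fun u hu => ?_, fun u hu => ?_, fun u hu v hv => ?_, hc, fun u hu l => ?_,
    fun a u hu => ?_⟩
  · rw [ap]
    exact add_mem (sub_mem (F.nW _ (h.mapW u hu)) (h.mapW _ (F.nW u hu)))
      (F.rel.mapW _ (h.mapW u hu))
  · rw [ap]
    exact add_mem (sub_mem (F.nI _ (h.mapI u hu)) (h.mapI _ (F.nI u hu)))
      (F.rel.mapI _ (h.mapI u hu))
  · rw [ap, ap]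
    have f1 := n.metric (Γ u) v
    have f2 := n.metric u (Γ v)
    rw [h.sa u hu v hv] at f1
    have f3 := h.sa _ (F.nW u hu) _ hv
    have f4 := h.sa _ hu _ (F.nW v hv)
    have f5 := F.rel.sa _ (h.mapW u hu) _ hv
    have f6 := h.sa u hu _ (F.rel.mapW v hv)
    have f7 : 𝒟.q u (Γ (E v)) = 𝒟.q u (E (Γ v)) := by
      have := F.perp _ (hΓE v hv) u hu
      rw [hG.form.symm, map_sub, sub_eq_zero] at this
      exact this
    simp only [map_add, map_sub, LinearMap.add_apply, LinearMap.sub_apply]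
    rw [f3, f5, f6, f7]
    linear_combination f2 - f1 - f4
  · rw [ap]
    have g1 := n.metric u (r l)
    have g2 := n.metric (Γ u) (t l)
    rw [h.one u hu l, r1] at g1
    rw [F.t1] at g2
    have g3 := h.one _ (F.nW u hu) l
    have g4 := h.one _ (F.YW (𝒟.arm l) u hu) l
    have g5 := F.rel.one _ (h.mapW u hu) l
    have g6 : 𝒟.q u (Y (𝒟.arm l) (r l)) = - 𝒟.q (Y (𝒟.arm l) u) (r l) := by
      rw [F.Ysk, neg_neg]
    have g7 : 𝒟.q (Γ u) (Y (𝒟.arm l) (t l)) = - 𝒟.q (Y (𝒟.arm l) (Γ u)) (t l) := by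
      rw [F.Ysk, neg_neg]
    have g8 := hB1 (𝒟.arm l) (t l) u hu
    rw [hG.form.symm, hG.form.symm (t l)] at g8
    simp only [map_add, map_sub, LinearMap.add_apply, LinearMap.sub_apply] at g1 g2 g8 ⊢
    linear_combination g2 - g1 - g3 + g4 - g6 + g7 + g5 - g8
  · have := add_mem (h2 a u hu) (hc a u hu)
    convert this using 1
    abel

/-- the second property of `B` follows from the first one -/
theorem hB2_of (F : FlowG 𝒟 W I t n Y E R)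
    (hWI : ∀ x ∈ W, (∀ w ∈ W, 𝒟.q x w = 0) → x ∈ I) {Γ : End L V} {r : J → V}
    (h : RelG 𝒟 W I t Γ r) {B : Fin 3 → End L V}
    (hB1 : ∀ a x, ∀ w ∈ W, 𝒟.q (B a x) w = 𝒟.q x (Γ (Y a w) - Y a (Γ w)))
    (hBW : ∀ a, ∀ w ∈ W, B a w ∈ W) (a : Fin 3) :
    ∀ w ∈ W, B a w - (Γ (Y a w) - Y a (Γ w)) ∈ I := by
  intro w hw
  refine hWI _ (sub_mem (hBW a w hw) (sub_mem (h.mapW _ (F.YW a w hw))
    (F.YW a _ (h.mapW w hw)))) fun v hv => ?_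
  have g1 := hB1 a w v hv
  have g2 := h.sa w hw _ (F.YW a v hv)
  have g3 := h.sa _ (F.YW a w hw) v hv
  have g4 := F.Ysk a w (Γ v)
  have g5 := F.Ysk a (Γ w) v
  simp only [map_sub, LinearMap.sub_apply] at g1 ⊢
  linear_combination g1 - g2 - g3 - g4 + g5

/-- the explicit operator `B` of the flow -/
theorem hB1_of (F : FlowG 𝒟 W I t n Y E R) (hYW : ∀ a v, Y a v ∈ W) {Γ Γ' : End L V} {r : J → V}
    (h : RelG 𝒟 W I t Γ r) (hΓ' : ∀ u v, 𝒟.q (Γ' u) v = 𝒟.q u (Γ v))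
    {ξ ξ' Q : Fin 3 → End L V} (hξW : ∀ a, ∀ w ∈ W, ξ a w ∈ W)
    (hξ : ∀ w ∈ W, ∑ a, Res 𝒟 t a (ξ a w) = w)
    (hQ : ∀ a, ∀ w ∈ W, opr 𝒟.q (Tt L r) (Gm 𝒟.arm 𝒟.Ω a) (Tt L t) w = Q a w)
    {T : End L V} (hT : T = ∑ b, Q b * ξ b) (a : Fin 3) :
    (∀ x, ∀ w ∈ W, 𝒟.q ((T * Y a - Y a * Γ' +
      ∑ c, (Q c - T * Res 𝒟 t c) * Y c * ξ' a) x) w = 𝒟.q x (Γ (Y a w) - Y a (Γ w))) ∧
    ∀ w ∈ W, (T * Y a - Y a * Γ' + ∑ c, (Q c - T * Res 𝒟 t c) * Y c * ξ' a) w ∈ W := by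
  have hQI : ∀ c, ∀ w ∈ W, Q c w - Γ (Res 𝒟 t c w) ∈ I := fun c w hw => by
    rw [← hQ c w hw]
    have := sub_mem (h.two c w hw) (h.comm c w hw)
    convert this using 1
    abel
  have hQW : ∀ c, ∀ w ∈ W, Q c w ∈ W := fun c w hw => by
    have := add_mem (F.IW (hQI c w hw)) (h.mapW _ (F.SW c w hw))
    rwa [sub_add_cancel] at this
  have hTΓ : ∀ w ∈ W, T w - Γ w ∈ I := fun w hw => by
    have h1 : T w - Γ w = ∑ b, (Q b (ξ b w) - Γ (Res 𝒟 t b (ξ b w))) := by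
      conv_lhs => rw [← hξ w hw]
      rw [hξ w hw, hT, Finset.sum_sub_distrib, ← map_sum, hξ w hw, LinearMap.sum_apply]
      rfl
    rw [h1]
    exact sum_mem fun b _ => hQI b _ (hξW b w hw)
  have hTW : ∀ w ∈ W, T w ∈ W := fun w hw => by
    have := add_mem (F.IW (hTΓ w hw)) (h.mapW _ hw)
    rwa [sub_add_cancel] at this
  have hQT : ∀ c, ∀ w ∈ W, (Q c - T * Res 𝒟 t c) w ∈ I := fun c w hw => by
    have := sub_mem (hQI c w hw) (hTΓ _ (F.SW c w hw))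
    convert this using 1
    rw [LinearMap.sub_apply, Module.End.mul_apply]
    abel
  have ap : ∀ x, (T * Y a - Y a * Γ' + ∑ c, (Q c - T * Res 𝒟 t c) * Y c * ξ' a) x =
      T (Y a x) - Y a (Γ' x) + ∑ c, (Q c - T * Res 𝒟 t c) (Y c (ξ' a x)) := by
    intro x
    rw [LinearMap.add_apply, LinearMap.sub_apply, LinearMap.sum_apply]
    rfl
  refine ⟨fun x w hw => ?_, fun w hw => ?_⟩
  · rw [ap]
    have e1 : 𝒟.q (∑ c, (Q c - T * Res 𝒟 t c) (Y c (ξ' a x))) w = 0 :=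
      F.perp _ (sum_mem fun c _ => hQT c _ (hYW c _)) w hw
    have e2 : 𝒟.q (T (Y a x)) w = 𝒟.q (Γ (Y a x)) w := by
      have := F.perp _ (hTΓ _ (hYW a x)) w hw
      rwa [map_sub, LinearMap.sub_apply, sub_eq_zero] at this
    have e3 := h.sa _ (hYW a x) w hw
    have e4 := F.Ysk a x (Γ w)
    have e5 := F.Ysk a (Γ' x) w
    have e6 := hΓ' x (Y a w)
    rw [map_add, LinearMap.add_apply, map_sub, LinearMap.sub_apply, e1, e2, e3, e4, e5, e6,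
      map_sub]
    ring
  · rw [ap]
    exact add_mem (sub_mem (hTW _ (hYW a w)) (hYW a _))
      (F.IW (sum_mem fun c _ => hQT c _ (hYW c _)))

/-- the explicit operator `B` of the flow of an off-diagonal chain, with different sections for
the two legs (534 NOTE G) -/
theorem hB1_of2 (F : FlowG 𝒟 W I t n Y E R) {Γ Γ' : End L V} {r : J → V}
    (h : RelG 𝒟 W I t Γ r) (hΓ' : ∀ u v, 𝒟.q (Γ' u) v = 𝒟.q u (Γ v))
    {U U' : Submodule L V} (hU : U ≤ W) (hU' : U' ≤ W)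
    (hSU : ∀ a, ∀ w ∈ U, Res 𝒟 t a w ∈ U) (hSU' : ∀ a, ∀ w ∈ U', Res 𝒟 t a w ∈ U')
    {A A' : Fin 3 → End L V} (hA : ∀ a v, A a v ∈ U) (hA' : ∀ a v, A' a v ∈ U')
    (hY : ∀ a v, Y a v = A a v - A' a v)
    {ξ ξ' ξd ξd' Q : Fin 3 → End L V} (hξW : ∀ a, ∀ w ∈ U, ξ a w ∈ W)
    (hξ'W : ∀ a, ∀ w ∈ U', ξ' a w ∈ W)
    (hξ : ∀ w ∈ U, ∑ a, Res 𝒟 t a (ξ a w) = w) (hξ' : ∀ w ∈ U', ∑ a, Res 𝒟 t a (ξ' a w) = w)
    (hQ : ∀ a, ∀ w ∈ W, opr 𝒟.q (Tt L r) (Gm 𝒟.arm 𝒟.Ω a) (Tt L t) w = Q a w)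
    {T T' : End L V} (hT : ∀ w ∈ U, T w = ∑ b, Q b (ξ b w))
    (hT' : ∀ w ∈ U', T' w = ∑ b, Q b (ξ' b w)) (a : Fin 3) :
    (∀ x, ∀ w ∈ W, 𝒟.q ((T * A a - T' * A' a - Y a * Γ' +
      ∑ c, ((Q c - T * Res 𝒟 t c) * A c * ξd' a - (Q c - T' * Res 𝒟 t c) * A' c * ξd a)) x) w =
        𝒟.q x (Γ (Y a w) - Y a (Γ w))) ∧
    ∀ x, (T * A a - T' * A' a - Y a * Γ' +
      ∑ c, ((Q c - T * Res 𝒟 t c) * A c * ξd' a -
        (Q c - T' * Res 𝒟 t c) * A' c * ξd a)) x ∈ W := by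
  have hQI : ∀ c, ∀ w ∈ W, Q c w - Γ (Res 𝒟 t c w) ∈ I := fun c w hw => by
    rw [← hQ c w hw]
    have := sub_mem (h.two c w hw) (h.comm c w hw)
    convert this using 1
    abel
  have hTΓ : ∀ w ∈ U, T w - Γ w ∈ I := fun w hw => by
    have h1 : T w - Γ w = ∑ b, (Q b (ξ b w) - Γ (Res 𝒟 t b (ξ b w))) := by
      rw [Finset.sum_sub_distrib, ← map_sum, hξ w hw, hT w hw]
    rw [h1]
    exact sum_mem fun b _ => hQI b _ (hξW b w hw)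
  have hTΓ' : ∀ w ∈ U', T' w - Γ w ∈ I := fun w hw => by
    have h1 : T' w - Γ w = ∑ b, (Q b (ξ' b w) - Γ (Res 𝒟 t b (ξ' b w))) := by
      rw [Finset.sum_sub_distrib, ← map_sum, hξ' w hw, hT' w hw]
    rw [h1]
    exact sum_mem fun b _ => hQI b _ (hξ'W b w hw)
  have hQT : ∀ c, ∀ w ∈ U, (Q c - T * Res 𝒟 t c) w ∈ I := fun c w hw => by
    have := sub_mem (hQI c w (hU hw)) (hTΓ _ (hSU c w hw))
    convert this using 1
    rw [LinearMap.sub_apply, Module.End.mul_apply]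
    abel
  have hQT' : ∀ c, ∀ w ∈ U', (Q c - T' * Res 𝒟 t c) w ∈ I := fun c w hw => by
    have := sub_mem (hQI c w (hU' hw)) (hTΓ' _ (hSU' c w hw))
    convert this using 1
    rw [LinearMap.sub_apply, Module.End.mul_apply]
    abel
  have hYW : ∀ a v, Y a v ∈ W := fun a v => by
    rw [hY]
    exact sub_mem (hU (hA a v)) (hU' (hA' a v))
  have ap : ∀ x, (T * A a - T' * A' a - Y a * Γ' +
      ∑ c, ((Q c - T * Res 𝒟 t c) * A c * ξd' a -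
        (Q c - T' * Res 𝒟 t c) * A' c * ξd a)) x =
      T (A a x) - T' (A' a x) - Y a (Γ' x) +
        ∑ c, ((Q c - T * Res 𝒟 t c) (A c (ξd' a x)) -
          (Q c - T' * Res 𝒟 t c) (A' c (ξd a x))) := by
    intro x
    rw [LinearMap.add_apply, LinearMap.sub_apply, LinearMap.sub_apply, LinearMap.sum_apply]
    rfl
  have hs : ∀ x, ∑ c, ((Q c - T * Res 𝒟 t c) (A c (ξd' a x)) -
      (Q c - T' * Res 𝒟 t c) (A' c (ξd a x))) ∈ I := fun x =>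
    sum_mem fun c _ => sub_mem (hQT c _ (hA c _)) (hQT' c _ (hA' c _))
  have hd : ∀ x, (T (A a x) - T' (A' a x)) - Γ (Y a x) ∈ I := fun x => by
    have := sub_mem (hTΓ _ (hA a x)) (hTΓ' _ (hA' a x))
    convert this using 1
    rw [hY, map_sub]
    abel
  refine ⟨fun x w hw => ?_, fun x => ?_⟩
  · rw [ap]
    have e1 := F.perp _ (hs x) w hw
    have e2 : 𝒟.q (T (A a x) - T' (A' a x)) w = 𝒟.q (Γ (Y a x)) w := by
      have := F.perp _ (hd x) w hw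
      rwa [map_sub, LinearMap.sub_apply, sub_eq_zero] at this
    have e3 := h.sa _ (hYW a x) w hw
    have e4 := F.Ysk a x (Γ w)
    have e5 := F.Ysk a (Γ' x) w
    have e6 := hΓ' x (Y a w)
    rw [map_add, LinearMap.add_apply, map_sub, LinearMap.sub_apply, e1, e2, e3, e4, e5, e6,
      map_sub]
    ring
  · rw [ap]
    have h1 := add_mem (F.IW (hd x)) (h.mapW _ (hYW a x))
    rw [sub_add_cancel] at h1
    exact add_mem (sub_mem h1 (hYW a _)) (F.IW (hs x))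

end base

end Vale.Agent.P182.H181
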