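import Vale.Agent.P182.H983.GDef

/-!
# The blocks at the bases `x t + y t'`

Decompositions along the blocks `U k`, change of the base for the auxiliary class, elements of
`Ku`.
-/

namespace Vale.Agent.P182.H181

open Module Matrix Vale.Agent.P182.H533 Vale.Agent.P182.B1 Vale.Agent.P182.H922
  Vale.Agent.P182.H578 Vale.Agent.P182.H588 Vale.Agent.P182.H983

universe u v w

section dec

variable {L V : Type*} [Field L] [AddCommGroup V] [Module L V]

/-- a linear decomposition along a sum of subspaces -/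
theorem exists_dec {n : ℕ} (U : Fin n → Submodule L V) :
    ∃ P : Fin n → End L V, (∀ k v, P k v ∈ U k) ∧ ∀ w ∈ ⨆ k, U k, ∑ k, P k w = w := by
  classical
  set W := ⨆ k, U k with hW
  have hle : ∀ k, U k ≤ W := fun k => le_iSup U k
  -- the sum map
  let φ : (∀ k, U k) →ₗ[L] W :=
    { toFun := fun f => ⟨∑ k, (f k : V), Submodule.sum_mem _ fun k _ => hle k (f k).2⟩
      map_add' := fun f g => Subtype.ext (by
        simp only [Pi.add_apply, Submodule.coe_add, Finset.sum_add_distrib])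
      map_smul' := fun c f => Subtype.ext (by
        simp only [Pi.smul_apply, Submodule.coe_smul, RingHom.id_apply, Finset.smul_sum]) }
  have hφ : LinearMap.range φ = ⊤ := by
    rw [eq_top_iff]
    rintro ⟨w, hw⟩ -
    have h1 : W ≤ (LinearMap.range φ).map W.subtype := by
      refine iSup_le fun k x hx => ?_
      refine ⟨φ (Pi.single k ⟨x, hx⟩), ⟨_, rfl⟩, ?_⟩
      show ∑ j, ((Pi.single k (⟨x, hx⟩ : U k) : ∀ k, U k) j : V) = x
      rw [Finset.sum_eq_single k]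
      · rw [Pi.single_eq_same]
      · intro j _ hj
        rw [Pi.single_eq_of_ne hj]
        rfl
      · intro h
        exact absurd (Finset.mem_univ k) h
    obtain ⟨y, hy, hyw⟩ := h1 hw
    have : y = ⟨w, hw⟩ := Subtype.ext hyw
    rwa [this] at hy
  obtain ⟨s, hs⟩ := LinearMap.exists_rightInverse_of_surjective φ hφ
  obtain ⟨π, hπ⟩ := LinearMap.exists_leftInverse_of_injective W.subtype (Submodule.ker_subtype W)
  refine ⟨fun k => (U k).subtype ∘ₗ LinearMap.proj k ∘ₗ s ∘ₗ π, fun k v => ?_, fun w hw => ?_⟩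
  · exact (s (π v) k).2
  · have h1 : π w = ⟨w, hw⟩ := LinearMap.congr_fun hπ ⟨w, hw⟩
    have h2 : φ (s (π w)) = π w := LinearMap.congr_fun hs (π w)
    have h3 : (φ (s (π w)) : V) = ∑ k, (s (π w) k : V) := rfl
    show ∑ k, (s (π w) k : V) = w
    rw [← h3, h2, h1]

end dec

section base

variable {L : Type u} {V : Type v} {J : Type w} [Field L] [AddCommGroup V] [Module L V]
  [Fintype J] [DecidableEq J] {𝒟 : Cfg L V J} {u : J → L} {t t' : J → V} {W I : Submodule L V}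
  {n : ℕ} {U : Fin n → Submodule L V} {d : Fin n → L} {p : Fin 3 → ℕ}

theorem mapU (B : Blk 𝒟 u t t' W I U d p) (k : Fin n) (a : Fin 3) {w : V} (hw : w ∈ U k) :
    Res 𝒟 t a w ∈ U k := by
  rw [← B.sumU k]
  exact Submodule.mem_iSup_of_mem a ⟨w, hw, rfl⟩

theorem U_le (B : Blk 𝒟 u t t' W I U d p) (k : Fin n) : U k ≤ W := by
  rw [← B.supU]
  exact le_iSup U k

theorem mapW (B : Blk 𝒟 u t t' W I U d p) (a : Fin 3) {w : V} (hw : w ∈ W) :
    Res 𝒟 t a w ∈ W := by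
  have h : Res 𝒟 t a w ∈ ⨆ a, W.map (Res 𝒟 t a) := Submodule.mem_iSup_of_mem a ⟨w, hw, rfl⟩
  rwa [B.sumW] at h

theorem I_le (B : Blk 𝒟 u t t' W I U d p) : I ≤ W := by
  rw [B.I_eq]
  exact inf_le_left

theorem I_perp (B : Blk 𝒟 u t t' W I U d p) {x : V} (hx : x ∈ I) {w : V} (hw : w ∈ W) :
    𝒟.q x w = 0 := by
  rw [B.I_eq] at hx
  exact hx.2 w hw

theorem mem_I (B : Blk 𝒟 u t t' W I U d p) {x : V} (hx : x ∈ W)
    (h : ∀ k, ∀ w ∈ U k, 𝒟.q x w = 0) : x ∈ I := by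
  rw [B.I_eq]
  refine ⟨hx, ?_⟩
  rw [← B.supU]
  intro w hw
  refine Submodule.iSup_induction U (motive := fun w => 𝒟.q x w = 0) hw h (map_zero _) ?_
  intro a b ha hb
  rw [map_add, ha, hb, add_zero]

theorem mapI (hG : 𝒟.Good) (B : Blk 𝒟 u t t' W I U d p) (a : Fin 3) {w : V} (hw : w ∈ I) :
    Res 𝒟 t a w ∈ I := by
  refine mem_I B (mapW B a (I_le B hw)) fun k v hv => ?_
  have hsa : IsSA 𝒟.q (Res 𝒟 t a) := Sop_SA 𝒟.arm hG.form (Tt L t) hG.skew a
  rw [hsa]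
  exact I_perp B hw (U_le B k (mapU B k a hv))

/-- membership on `W` is checked on the blocks -/
theorem W_ind (B : Blk 𝒟 u t t' W I U d p) {X : Submodule L V} {f : End L V}
    (h : ∀ k, ∀ w ∈ U k, f w ∈ X) : ∀ w ∈ W, f w ∈ X := by
  intro w hw
  rw [← B.supU] at hw
  refine Submodule.iSup_induction U (motive := fun w => f w ∈ X) hw h (by
    rw [map_zero]; exact X.zero_mem) ?_
  intro a b ha hb
  rw [map_add]
  exact X.add_mem ha hb

theorem tm_mem (B : Blk 𝒟 u t t' W I U d p) (x y : L) : tm t t' x y ∈ Ku 𝒟 u :=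
  (Ku 𝒟 u).add_mem ((Ku 𝒟 u).smul_mem x B.ht) ((Ku 𝒟 u).smul_mem y B.ht')

theorem q_t' (hG : 𝒟.Good) (B : Blk 𝒟 u t t' W I U d p) {k : Fin n} {w : V} (hw : w ∈ U k)
    (l : J) : 𝒟.q w (t' l) = d k * 𝒟.q w (t l) := by
  rw [hG.form.symm w, hG.form.symm w, B.star k w hw l]

/-- every element of `Ku` is a multiple of `t` on each block -/
theorem q_comb (hG : 𝒟.Good) (B : Blk 𝒟 u t t' W I U d p) {k : Fin n} {w : V} (hw : w ∈ U k)
    (x y : L) (l : J) :
    𝒟.q w ((x • t + y • t') l) = (x + y * d k) * 𝒟.q w (t l) := by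
  rw [Pi.add_apply, Pi.smul_apply, Pi.smul_apply, map_add, map_smul, map_smul, smul_eq_mul,
    smul_eq_mul, q_t' hG B hw]
  ring

theorem q_tm (hG : 𝒟.Good) (B : Blk 𝒟 u t t' W I U d p) {k : Fin n} {w : V} (hw : w ∈ U k)
    (x y : L) (l : J) :
    𝒟.q w (tm t t' x y l) = (x + y * d k) * 𝒟.q w (t l) := q_comb hG B hw x y l

/-- mixed operators on the blocks -/
theorem opr_tm (hG : 𝒟.Good) (B : Blk 𝒟 u t t' W I U d p) {k : Fin n} {w : V} (hw : w ∈ U k)
    (x y : L) (r : J → V) (a : Fin 3) :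
    opr 𝒟.q (Tt L r) (Gm 𝒟.arm 𝒟.Ω a) (Tt L (tm t t' x y)) w =
      (x + y * d k) • opr 𝒟.q (Tt L r) (Gm 𝒟.arm 𝒟.Ω a) (Tt L t) w := by
  rw [← map_smul]
  refine opr_congr hG (fun l => ?_) r a
  rw [q_tm hG B hw, map_smul, LinearMap.smul_apply, smul_eq_mul]

variable (hG : 𝒟.Good)
  (hK : KRel 𝒟.arm 𝒟.q 𝒟.Ω (Tt L '' (Ku 𝒟 u : Set (J → V))))

include hG hK

/-- the symmetry of the mixed operators -/
theorem opr_Ku_swap {r r' : J → V} (hr : r ∈ Ku 𝒟 u) (hr' : r' ∈ Ku 𝒟 u) (a : Fin 3) :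
    opr 𝒟.q (Tt L r) (Gm 𝒟.arm 𝒟.Ω a) (Tt L r') = opr 𝒟.q (Tt L r') (Gm 𝒟.arm 𝒟.Ω a) (Tt L r) :=
  hK.swap hG.form hG.skew ⟨r, hr, rfl⟩ ⟨r', hr', rfl⟩ a

theorem opr_tm_left (B : Blk 𝒟 u t t' W I U d p) {k : Fin n} {w : V} (hw : w ∈ U k)
    (x y : L) (a : Fin 3) :
    opr 𝒟.q (Tt L (tm t t' x y)) (Gm 𝒟.arm 𝒟.Ω a) (Tt L t) w = (x + y * d k) • Res 𝒟 t a w := by
  rw [opr_Ku_swap hG hK (tm_mem B x y) B.ht, opr_tm hG B hw]
  rfl

/-- the residues of the two-parameter base -/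
theorem Res_tm (B : Blk 𝒟 u t t' W I U d p) {k : Fin n} {w : V} (hw : w ∈ U k)
    (x y : L) (a : Fin 3) :
    Res 𝒟 (tm t t' x y) a w = (x + y * d k) ^ 2 • Res 𝒟 t a w := by
  have h1 : Res 𝒟 (tm t t' x y) a w =
      opr 𝒟.q (Tt L (tm t t' x y)) (Gm 𝒟.arm 𝒟.Ω a) (Tt L (tm t t' x y)) w := rfl
  rw [h1, opr_tm hG B hw, opr_tm_left hG hK B hw, smul_smul, pow_two]

theorem mapU_tm (B : Blk 𝒟 u t t' W I U d p) (x y : L) (k : Fin n) (a : Fin 3) {w : V}
    (hw : w ∈ U k) : Res 𝒟 (tm t t' x y) a w ∈ U k := by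
  rw [Res_tm hG hK B hw]
  exact (U k).smul_mem _ (mapU B k a hw)

theorem mapW_tm (B : Blk 𝒟 u t t' W I U d p) (x y : L) (a : Fin 3) :
    ∀ w ∈ W, Res 𝒟 (tm t t' x y) a w ∈ W :=
  W_ind B fun k _ hw => U_le B k (mapU_tm hG hK B x y k a hw)

theorem mapI_tm (B : Blk 𝒟 u t t' W I U d p) (x y : L) (a : Fin 3) {w : V} (hw : w ∈ I) :
    Res 𝒟 (tm t t' x y) a w ∈ I := by
  refine mem_I B (mapW_tm hG hK B x y a w (I_le B hw)) fun k v hv => ?_
  have hsa : IsSA 𝒟.q (Res 𝒟 (tm t t' x y) a) :=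
    Sop_SA 𝒟.arm hG.form (Tt L (tm t t' x y)) hG.skew a
  rw [hsa]
  exact I_perp B hw (U_le B k (mapU_tm hG hK B x y k a hv))

theorem sumU_tm (B : Blk 𝒟 u t t' W I U d p) {x y : L} (k : Fin n) (hxy : x + y * d k ≠ 0) :
    ⨆ a, (U k).map (Res 𝒟 (tm t t' x y) a) = U k := by
  refine le_antisymm (iSup_le fun a => ?_) ?_
  · rintro _ ⟨w, hw, rfl⟩
    exact mapU_tm hG hK B x y k a hw
  · conv_lhs => rw [← B.sumU k]
    refine iSup_mono fun a => ?_
    rintro _ ⟨w, hw, rfl⟩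
    refine ⟨((x + y * d k) ^ 2)⁻¹ • w, (U k).smul_mem _ hw, ?_⟩
    rw [map_smul, Res_tm hG hK B hw, smul_smul, inv_mul_cancel₀ (pow_ne_zero 2 hxy), one_smul]

theorem sumW_tm (B : Blk 𝒟 u t t' W I U d p) {x y : L} (hxy : ∀ k, x + y * d k ≠ 0) :
    ⨆ a, W.map (Res 𝒟 (tm t t' x y) a) = W := by
  refine le_antisymm (iSup_le fun a => ?_) ?_
  · rintro _ ⟨w, hw, rfl⟩
    exact mapW_tm hG hK B x y a w hw
  · conv_lhs => rw [← B.supU]
    refine iSup_le fun k => ?_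
    conv_lhs => rw [← sumU_tm hG hK B k (hxy k)]
    exact iSup_mono fun a => Submodule.map_mono (U_le B k)

omit hG hK in
/-- the components of a vector of `W` -/
theorem dec_facts (B : Blk 𝒟 u t t' W I U d p) {P : Fin n → End L V} (hP : ∀ k v, P k v ∈ U k)
    (hs : ∀ w ∈ W, ∑ k, P k w = w) :
    (∀ m, ∀ w ∈ I, P m w ∈ I) ∧ (∀ k m, k ≠ m → ∀ w ∈ U k, P m w ∈ I) ∧
      ∀ k, ∀ w ∈ U k, P k w - w ∈ I := by
  have key : ∀ m, ∀ w ∈ W, (∀ v ∈ U m, 𝒟.q w v = 0) → P m w ∈ I := by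
    intro m w hw h
    refine mem_I B (U_le B m (hP m w)) fun k v hv => ?_
    by_cases hkm : k = m
    · subst hkm
      have h1 : 𝒟.q w v = ∑ j, 𝒟.q (P j w) v := by
        conv_lhs => rw [← hs w hw]
        rw [map_sum, LinearMap.sum_apply]
      rw [h v hv, Finset.sum_eq_single k
        (fun j _ hj => B.ortho j k hj _ (hP j w) v hv)
        (fun hk => absurd (Finset.mem_univ k) hk)] at h1
      exact h1.symm
    · exact B.ortho m k (Ne.symm hkm) _ (hP m w) v hv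
  have h1 : ∀ m, ∀ w ∈ I, P m w ∈ I := fun m w hw =>
    key m w (I_le B hw) fun v hv => I_perp B hw (U_le B m hv)
  have h2 : ∀ k m, k ≠ m → ∀ w ∈ U k, P m w ∈ I := fun k m hkm w hw =>
    key m w (U_le B k hw) fun v hv => B.ortho k m hkm w hw v hv
  refine ⟨h1, h2, fun k w hw => ?_⟩
  have e : P k w - w = - ∑ j ∈ Finset.univ.erase k, P j w := by
    have h3 := Finset.add_sum_erase Finset.univ (fun j => P j w) (Finset.mem_univ k)
    simp only [hs w (U_le B k hw)] at h3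
    rw [eq_neg_iff_add_eq_zero, sub_add_eq_add_sub, h3, sub_self]
  rw [e]
  exact I.neg_mem (Submodule.sum_mem _ fun j hj =>
    h2 k j (Ne.symm (Finset.ne_of_mem_erase hj)) w hw)

omit hG hK in
/-- the operator which is `c k` on the block `U k`, modulo `I` -/
theorem exists_scal (B : Blk 𝒟 u t t' W I U d p) (c : Fin n → L) :
    ∃ M : End L V, (∀ w ∈ W, M w ∈ W) ∧ (∀ w ∈ I, M w ∈ I) ∧
      (∀ k, ∀ w ∈ U k, M w - c k • w ∈ I) ∧
      ∀ r r' : J → V, (∀ k, ∀ w ∈ U k, ∀ l, 𝒟.q w (r l) = c k * 𝒟.q w (r' l)) →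
        ∀ w ∈ W, ∀ l, 𝒟.q w (r l) = 𝒟.q (M w) (r' l) := by
  obtain ⟨P, hP, hs'⟩ := exists_dec U
  have hs : ∀ w ∈ W, ∑ k, P k w = w := by
    rw [B.supU] at hs'
    exact hs'
  obtain ⟨h1, h2, h3⟩ := dec_facts B hP hs
  have ap : ∀ w, (∑ k, c k • P k) w = ∑ k, c k • P k w := fun w => by
    rw [LinearMap.sum_apply]
    rfl
  refine ⟨∑ k, c k • P k, fun w _ => ?_, fun w hw => ?_, fun k w hw => ?_,
    fun r r' hr w hw l => ?_⟩
  · rw [ap]
    exact Submodule.sum_mem _ fun k _ => W.smul_mem _ (U_le B k (hP k w))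
  · rw [ap]
    exact Submodule.sum_mem _ fun k _ => I.smul_mem _ (h1 k w hw)
  · rw [ap, ← Finset.add_sum_erase Finset.univ _ (Finset.mem_univ k)]
    have e : c k • P k w + ∑ j ∈ Finset.univ.erase k, c j • P j w - c k • w =
        c k • (P k w - w) + ∑ j ∈ Finset.univ.erase k, c j • P j w := by
      rw [smul_sub]; abel
    rw [e]
    exact I.add_mem (I.smul_mem _ (h3 k w hw)) (Submodule.sum_mem _ fun j hj =>
      I.smul_mem _ (h2 k j (Ne.symm (Finset.ne_of_mem_erase hj)) w hw))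
  · rw [ap]
    conv_lhs => rw [← hs w hw]
    rw [map_sum, map_sum, LinearMap.sum_apply, LinearMap.sum_apply]
    refine Finset.sum_congr rfl fun k _ => ?_
    rw [hr k _ (hP k w), map_smul, LinearMap.smul_apply, smul_eq_mul]

/-- **Change of the base**: from `t` to `x t + y t'`. -/
theorem relG_to_tm (B : Blk 𝒟 u t t' W I U d p) {x y : L} (hxy : ∀ k, x + y * d k ≠ 0)
    {Γ : End L V} {r : J → V} (h : RelG 𝒟 W I t Γ r)
    (hΓ : ∀ k, ∀ w ∈ U k, ∃ v ∈ U k, Γ w - v ∈ I) :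
    ∃ Γ', RelG 𝒟 W I (tm t t' x y) Γ' r ∧
      (∀ k, ∀ w ∈ U k, Γ' w - (x + y * d k)⁻¹ • Γ w ∈ I) := by
  obtain ⟨M, M1, M2, M3, M4⟩ := exists_scal B fun k => (x + y * d k)⁻¹
  have hM : ∀ k, ∀ w ∈ U k, M (Γ w) - (x + y * d k)⁻¹ • Γ w ∈ I := by
    intro k w hw
    obtain ⟨v, hv, hvw⟩ := hΓ k w hw
    have h1 := M2 _ hvw
    have h2 := M3 k v hv
    have h3 := I.smul_mem (x + y * d k)⁻¹ hvw
    have := I.sub_mem (I.add_mem h1 h2) h3
    convert this using 1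
    rw [map_sub, smul_sub]
    abel
  have hR : ∀ k a, ∀ w ∈ U k, Res 𝒟 (tm t t' x y) a (M (Γ w)) -
      (x + y * d k) • Res 𝒟 t a (Γ w) ∈ I := by
    intro k a w hw
    obtain ⟨v, hv, hvw⟩ := hΓ k w hw
    have h1 : M (Γ w) - (x + y * d k)⁻¹ • v ∈ I := by
      have := I.add_mem (hM k w hw) (I.smul_mem (x + y * d k)⁻¹ hvw)
      convert this using 1
      rw [smul_sub]
      abel
    have h2 := mapI_tm hG hK B x y a h1
    have h3 := I.smul_mem (x + y * d k) (mapI hG B a hvw)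
    rw [map_sub, map_smul, Res_tm hG hK B hv, smul_smul, pow_two, ← mul_assoc,
      inv_mul_cancel₀ (hxy k), one_mul] at h2
    rw [map_sub, smul_sub] at h3
    have := I.sub_mem h2 h3
    convert this using 1
    abel
  have hone : ∀ w ∈ W, ∀ l, 𝒟.q w (t l) = 𝒟.q (M w) (tm t t' x y l) := by
    refine M4 _ _ fun k w hw l => ?_
    rw [q_tm hG B hw, ← mul_assoc, inv_mul_cancel₀ (hxy k), one_mul]
  refine ⟨M * Γ, ⟨fun w hw => M1 _ (h.mapW w hw), fun w hw => M2 _ (h.mapI w hw), ?_, ?_, ?_, ?_⟩,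
    hM⟩
  · -- self-adjoint
    have key : ∀ k m, ∀ v ∈ U k, ∀ w ∈ U m, 𝒟.q ((M * Γ) v) w = 𝒟.q v ((M * Γ) w) := by
      intro k m v hv w hw
      have e1 : 𝒟.q (M (Γ v)) w = (x + y * d k)⁻¹ * 𝒟.q (Γ v) w := by
        have h1 := I_perp B (hM k v hv) (U_le B m hw)
        rw [map_sub, LinearMap.sub_apply, map_smul, LinearMap.smul_apply, sub_eq_zero] at h1
        exact h1
      have e2 : 𝒟.q v (M (Γ w)) = (x + y * d m)⁻¹ * 𝒟.q v (Γ w) := by
        have h1 := I_perp B (hM m w hw) (U_le B k hv)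
        rw [hG.form.symm, map_sub, map_smul, sub_eq_zero] at h1
        exact h1
      show 𝒟.q (M (Γ v)) w = 𝒟.q v (M (Γ w))
      rw [e1, e2, h.sa v (U_le B k hv) w (U_le B m hw)]
      by_cases hkm : k = m
      · rw [hkm]
      · obtain ⟨v', hv', hvw⟩ := hΓ m w hw
        have h1 := I_perp B hvw (U_le B k hv)
        rw [hG.form.symm, map_sub, B.ortho k m hkm v hv v' hv', sub_zero] at h1
        rw [h1, mul_zero, mul_zero]
    intro v hv w hw
    rw [← B.supU] at hv hw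
    refine Submodule.iSup_induction U (motive := fun v => 𝒟.q ((M * Γ) v) w = 𝒟.q v ((M * Γ) w))
      hv (fun k v hv => ?_) (by simp) fun a b ha hb => by
        rw [map_add, map_add, map_add, LinearMap.add_apply, LinearMap.add_apply, ha, hb]
    refine Submodule.iSup_induction U (motive := fun w => 𝒟.q ((M * Γ) v) w = 𝒟.q v ((M * Γ) w))
      hw (fun m w hw => key k m v hv w hw) (by simp) fun a b ha hb => by
        rw [map_add, map_add, map_add, ha, hb]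
  · -- commutation
    intro a w hw
    have h1 : ∀ w ∈ W, (M * Γ * Res 𝒟 (tm t t' x y) a -
        Res 𝒟 (tm t t' x y) a * (M * Γ)) w ∈ I := by
      refine W_ind B fun k w hw => ?_
      rw [LinearMap.sub_apply]
      show M (Γ (Res 𝒟 (tm t t' x y) a w)) - Res 𝒟 (tm t t' x y) a (M (Γ w)) ∈ I
      have e1 := hM k _ (mapU_tm hG hK B x y k a hw)
      have e2 := hR k a w hw
      have e3 := I.smul_mem (x + y * d k) (h.comm a w (U_le B k hw))
      rw [Res_tm hG hK B hw] at e1 ⊢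
      rw [smul_sub] at e3
      have := I.add_mem (I.sub_mem e1 e2) e3
      convert this using 1
      rw [map_smul Γ, smul_smul, pow_two, ← mul_assoc, inv_mul_cancel₀ (hxy k), one_mul]
      abel
    exact h1 w hw
  · intro w hw l
    rw [h.one w hw, hone _ (h.mapW w hw)]
    rfl
  · intro a w hw
    have h1 : ∀ w ∈ W, (opr 𝒟.q (Tt L r) (Gm 𝒟.arm 𝒟.Ω a) (Tt L (tm t t' x y)) -
        Res 𝒟 (tm t t' x y) a * (M * Γ)) w ∈ I := by
      refine W_ind B fun k w hw => ?_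
      rw [LinearMap.sub_apply, opr_tm hG B hw]
      show _ - Res 𝒟 (tm t t' x y) a (M (Γ w)) ∈ I
      have e2 := hR k a w hw
      have e3 := I.smul_mem (x + y * d k) (h.two a w (U_le B k hw))
      rw [smul_sub] at e3
      have := I.sub_mem e3 e2
      convert this using 1
      abel
    exact h1 w hw

/-- **Change of the base**: from `x t + y t'` to `t`. -/
theorem relG_of_tm (B : Blk 𝒟 u t t' W I U d p) {x y : L} (hxy : ∀ k, x + y * d k ≠ 0)
    {Γ : End L V} {r : J → V} (h : RelG 𝒟 W I (tm t t' x y) Γ r)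
    (hΓ : ∀ k, ∀ w ∈ U k, ∃ v ∈ U k, Γ w - v ∈ I) :
    ∃ Γ', RelG 𝒟 W I t Γ' r ∧ (∀ k, ∀ w ∈ U k, Γ' w - (x + y * d k) • Γ w ∈ I) := by
  obtain ⟨M, M1, M2, M3, M4⟩ := exists_scal B fun k => x + y * d k
  have hM : ∀ k, ∀ w ∈ U k, M (Γ w) - (x + y * d k) • Γ w ∈ I := by
    intro k w hw
    obtain ⟨v, hv, hvw⟩ := hΓ k w hw
    have h1 := M2 _ hvw
    have h2 := M3 k v hv
    have h3 := I.smul_mem (x + y * d k) hvw
    have := I.sub_mem (I.add_mem h1 h2) h3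
    convert this using 1
    rw [map_sub, smul_sub]
    abel
  have hR : ∀ k a, ∀ w ∈ U k, (x + y * d k) • Res 𝒟 t a (M (Γ w)) -
      Res 𝒟 (tm t t' x y) a (Γ w) ∈ I := by
    intro k a w hw
    obtain ⟨v, hv, hvw⟩ := hΓ k w hw
    have h1 : M (Γ w) - (x + y * d k) • v ∈ I := by
      have := I.add_mem (hM k w hw) (I.smul_mem (x + y * d k) hvw)
      convert this using 1
      rw [smul_sub]
      abel
    have h2 := I.smul_mem (x + y * d k) (mapI hG B a h1)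
    have h3 := mapI_tm hG hK B x y a hvw
    rw [map_sub, Res_tm hG hK B hv] at h3
    rw [map_sub, map_smul, smul_sub, smul_smul, ← pow_two] at h2
    have := I.sub_mem h2 h3
    convert this using 1
    abel
  have hone : ∀ w ∈ W, ∀ l, 𝒟.q w (tm t t' x y l) = 𝒟.q (M w) (t l) :=
    M4 _ _ fun k w hw l => q_tm hG B hw x y l
  have hopr : ∀ a k, ∀ w ∈ U k, opr 𝒟.q (Tt L r) (Gm 𝒟.arm 𝒟.Ω a) (Tt L t) w =
      (x + y * d k)⁻¹ • opr 𝒟.q (Tt L r) (Gm 𝒟.arm 𝒟.Ω a) (Tt L (tm t t' x y)) w := by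
    intro a k w hw
    rw [opr_tm hG B hw, smul_smul, inv_mul_cancel₀ (hxy k), one_smul]
  refine ⟨M * Γ, ⟨fun w hw => M1 _ (h.mapW w hw), fun w hw => M2 _ (h.mapI w hw), ?_, ?_, ?_, ?_⟩,
    hM⟩
  · have key : ∀ k m, ∀ v ∈ U k, ∀ w ∈ U m, 𝒟.q ((M * Γ) v) w = 𝒟.q v ((M * Γ) w) := by
      intro k m v hv w hw
      have e1 : 𝒟.q (M (Γ v)) w = (x + y * d k) * 𝒟.q (Γ v) w := by
        have h1 := I_perp B (hM k v hv) (U_le B m hw)
        rw [map_sub, LinearMap.sub_apply, map_smul, LinearMap.smul_apply, sub_eq_zero] at h1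
        exact h1
      have e2 : 𝒟.q v (M (Γ w)) = (x + y * d m) * 𝒟.q v (Γ w) := by
        have h1 := I_perp B (hM m w hw) (U_le B k hv)
        rw [hG.form.symm, map_sub, map_smul, sub_eq_zero] at h1
        exact h1
      show 𝒟.q (M (Γ v)) w = 𝒟.q v (M (Γ w))
      rw [e1, e2, h.sa v (U_le B k hv) w (U_le B m hw)]
      by_cases hkm : k = m
      · rw [hkm]
      · obtain ⟨v', hv', hvw⟩ := hΓ m w hw
        have h1 := I_perp B hvw (U_le B k hv)
        rw [hG.form.symm, map_sub, B.ortho k m hkm v hv v' hv', sub_zero] at h1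
        rw [h1, mul_zero, mul_zero]
    intro v hv w hw
    rw [← B.supU] at hv hw
    refine Submodule.iSup_induction U (motive := fun v => 𝒟.q ((M * Γ) v) w = 𝒟.q v ((M * Γ) w))
      hv (fun k v hv => ?_) (by simp) fun a b ha hb => by
        rw [map_add, map_add, map_add, LinearMap.add_apply, LinearMap.add_apply, ha, hb]
    refine Submodule.iSup_induction U (motive := fun w => 𝒟.q ((M * Γ) v) w = 𝒟.q v ((M * Γ) w))
      hw (fun m w hw => key k m v hv w hw) (by simp) fun a b ha hb => by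
        rw [map_add, map_add, map_add, ha, hb]
  · intro a w hw
    have h1 : ∀ w ∈ W, (M * Γ * Res 𝒟 t a - Res 𝒟 t a * (M * Γ)) w ∈ I := by
      refine W_ind B fun k w hw => ?_
      rw [LinearMap.sub_apply]
      show M (Γ (Res 𝒟 t a w)) - Res 𝒟 t a (M (Γ w)) ∈ I
      have e1 := hM k _ (mapU B k a hw)
      have e2 := I.smul_mem (x + y * d k)⁻¹ (hR k a w hw)
      have e3 := I.smul_mem (x + y * d k)⁻¹ (h.comm a w (U_le B k hw))
      rw [Res_tm hG hK B hw, map_smul, smul_sub, smul_smul, pow_two, ← mul_assoc,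
        inv_mul_cancel₀ (hxy k), one_mul] at e3
      rw [smul_sub, smul_smul, inv_mul_cancel₀ (hxy k), one_smul] at e2
      have := I.add_mem (I.sub_mem e1 e2) e3
      convert this using 1
      abel
    exact h1 w hw
  · intro w hw l
    have h1 := h.one w hw l
    rw [hone _ (h.mapW w hw)] at h1
    exact h1
  · intro a w hw
    have h1 : ∀ w ∈ W, (opr 𝒟.q (Tt L r) (Gm 𝒟.arm 𝒟.Ω a) (Tt L t) -
        Res 𝒟 t a * (M * Γ)) w ∈ I := by
      refine W_ind B fun k w hw => ?_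
      rw [LinearMap.sub_apply, hopr a k w hw]
      show _ - Res 𝒟 t a (M (Γ w)) ∈ I
      have e2 := I.smul_mem (x + y * d k)⁻¹ (hR k a w hw)
      have e3 := I.smul_mem (x + y * d k)⁻¹ (h.two a w (U_le B k hw))
      rw [smul_sub, smul_smul, inv_mul_cancel₀ (hxy k), one_smul] at e2
      rw [smul_sub] at e3
      have := I.sub_mem e3 e2
      convert this using 1
      abel
    exact h1 w hw

/-- **Elements of `Ku`** are in the class, at every base `x t + y t'`. -/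
theorem relG_Ku (B : Blk 𝒟 u t t' W I U d p) {x y : L} (hxy : ∀ k, x + y * d k ≠ 0)
    {R : J → V} (hR : R ∈ Ku 𝒟 u) :
    ∃ (E : End L V) (c : Fin n → L), RelG 𝒟 W I (tm t t' x y) E R ∧
      ∀ k, ∀ w ∈ U k, E w - c k • w ∈ I := by
  obtain ⟨α, β, rfl⟩ := B.span R hR
  obtain ⟨M, M1, M2, M3, M4⟩ := exists_scal B fun k => (α + β * d k) * (x + y * d k)⁻¹
  refine ⟨M, _, ⟨M1, M2, ?_, ?_, ?_, ?_⟩, M3⟩
  · have key : ∀ k m, ∀ v ∈ U k, ∀ w ∈ U m, 𝒟.q (M v) w = 𝒟.q v (M w) := by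
      intro k m v hv w hw
      have h1 := I_perp B (M3 k v hv) (U_le B m hw)
      have h2 := I_perp B (M3 m w hw) (U_le B k hv)
      rw [map_sub, LinearMap.sub_apply, map_smul, LinearMap.smul_apply, sub_eq_zero] at h1
      rw [hG.form.symm, map_sub, map_smul, sub_eq_zero] at h2
      rw [h1, h2]
      by_cases hkm : k = m
      · rw [hkm]
      · rw [B.ortho k m hkm v hv w hw, smul_zero, smul_zero]
    intro v hv w hw
    rw [← B.supU] at hv hw
    refine Submodule.iSup_induction U (motive := fun v => 𝒟.q (M v) w = 𝒟.q v (M w))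
      hv (fun k v hv => ?_) (by simp) fun a b ha hb => by
        rw [map_add, map_add, map_add, LinearMap.add_apply, LinearMap.add_apply, ha, hb]
    refine Submodule.iSup_induction U (motive := fun w => 𝒟.q (M v) w = 𝒟.q v (M w))
      hw (fun m w hw => key k m v hv w hw) (by simp) fun a b ha hb => by
        rw [map_add, map_add, map_add, ha, hb]
  · intro a w hw
    have h1 : ∀ w ∈ W, (M * Res 𝒟 (tm t t' x y) a - Res 𝒟 (tm t t' x y) a * M) w ∈ I := by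
      refine W_ind B fun k w hw => ?_
      rw [LinearMap.sub_apply]
      show M (Res 𝒟 (tm t t' x y) a w) - Res 𝒟 (tm t t' x y) a (M w) ∈ I
      have e1 := M3 k _ (mapU_tm hG hK B x y k a hw)
      have e2 := mapI_tm hG hK B x y a (M3 k w hw)
      rw [map_sub, map_smul] at e2
      have := I.sub_mem e1 e2
      convert this using 1
      abel
    exact h1 w hw
  · refine M4 _ _ fun k w hw l => ?_
    rw [q_tm hG B hw, q_comb hG B hw, mul_assoc, ← mul_assoc (x + y * d k)⁻¹,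
      inv_mul_cancel₀ (hxy k), one_mul]
  · intro a w hw
    have h1 : ∀ w ∈ W, (opr 𝒟.q (Tt L (α • t + β • t')) (Gm 𝒟.arm 𝒟.Ω a)
        (Tt L (tm t t' x y)) - Res 𝒟 (tm t t' x y) a * M) w ∈ I := by
      refine W_ind B fun k w hw => ?_
      rw [LinearMap.sub_apply, opr_tm hG B hw]
      show _ - Res 𝒟 (tm t t' x y) a (M w) ∈ I
      have e1 : opr 𝒟.q (Tt L (α • t + β • t')) (Gm 𝒟.arm 𝒟.Ω a) (Tt L t) w =
          (α + β * d k) • Res 𝒟 t a w := opr_tm_left hG hK B hw α β a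
      have e2 := mapI_tm hG hK B x y a (M3 k w hw)
      rw [map_sub, map_smul, Res_tm hG hK B hw, smul_smul] at e2
      rw [e1, smul_smul]
      have := I.neg_mem e2
      convert this using 1
      have e3 : (α + β * d k) * (x + y * d k)⁻¹ * (x + y * d k) ^ 2 =
          (x + y * d k) * (α + β * d k) := by
        field_simp [hxy k]
      rw [e3]
      abel
    exact h1 w hw

omit hG hK in
/-- at the base `t`, the operator of a family of the class is a scalar on every block -/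
theorem relG_scal (B : Blk 𝒟 u t t' W I U d p) {Γ : End L V} {r : J → V}
    (h : RelG 𝒟 W I t Γ r) : ∃ c : Fin n → L, ∀ k, ∀ w ∈ U k, Γ w - c k • w ∈ I :=
  B.scal Γ h.mapW h.mapI h.sa h.comm

/-- from `t` to `x t + y t'`, with the scalars -/
theorem relG_to_tm' (B : Blk 𝒟 u t t' W I U d p) {x y : L} (hxy : ∀ k, x + y * d k ≠ 0)
    {Γ : End L V} {r : J → V} (h : RelG 𝒟 W I t Γ r) {c : Fin n → L}
    (hc : ∀ k, ∀ w ∈ U k, Γ w - c k • w ∈ I) :
    ∃ Γ', RelG 𝒟 W I (tm t t' x y) Γ' r ∧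
      ∀ k, ∀ w ∈ U k, Γ' w - ((x + y * d k)⁻¹ * c k) • w ∈ I := by
  obtain ⟨Γ', h1, h2⟩ := relG_to_tm hG hK B hxy h fun k w hw =>
    ⟨c k • w, (U k).smul_mem _ hw, hc k w hw⟩
  refine ⟨Γ', h1, fun k w hw => ?_⟩
  have := I.add_mem (h2 k w hw) (I.smul_mem (x + y * d k)⁻¹ (hc k w hw))
  convert this using 1
  rw [smul_sub, smul_smul]
  abel

/-- an operator of the class at `x t + y t'` which preserves the blocks is a scalar on them -/
theorem relG_tm_scal (B : Blk 𝒟 u t t' W I U d p) {x y : L} (hxy : ∀ k, x + y * d k ≠ 0)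
    {Γ : End L V} {r : J → V} (h : RelG 𝒟 W I (tm t t' x y) Γ r)
    (hΓ : ∀ k, ∀ w ∈ U k, ∃ v ∈ U k, Γ w - v ∈ I) :
    ∃ c : Fin n → L, ∀ k, ∀ w ∈ U k, Γ w - c k • w ∈ I := by
  refine B.scal Γ h.mapW h.mapI h.sa fun a w hw => ?_
  have h1 : ∀ w ∈ W, (Γ * Res 𝒟 t a - Res 𝒟 t a * Γ) w ∈ I := by
    refine W_ind B fun k w hw => ?_
    rw [LinearMap.sub_apply]
    show Γ (Res 𝒟 t a w) - Res 𝒟 t a (Γ w) ∈ I
    obtain ⟨v, hv, hvw⟩ := hΓ k w hw
    have e1 := h.comm a w (U_le B k hw)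
    have e2 := mapI_tm hG hK B x y a hvw
    have e3 := mapI hG B a hvw
    rw [map_sub, Res_tm hG hK B hv] at e2
    rw [Res_tm hG hK B hw, map_smul] at e1
    rw [map_sub] at e3
    have e4 := I.smul_mem ((x + y * d k) ^ 2)⁻¹ (I.add_mem e1 e2)
    have e5 : ((x + y * d k) ^ 2)⁻¹ • ((x + y * d k) ^ 2 • Γ (Res 𝒟 t a w) -
        Res 𝒟 (tm t t' x y) a (Γ w) + (Res 𝒟 (tm t t' x y) a (Γ w) -
          (x + y * d k) ^ 2 • Res 𝒟 t a v)) = Γ (Res 𝒟 t a w) - Res 𝒟 t a v := by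
      rw [sub_add_sub_cancel, ← smul_sub, smul_smul,
        inv_mul_cancel₀ (pow_ne_zero 2 (hxy k)), one_smul]
    rw [e5] at e4
    have := I.sub_mem e4 e3
    convert this using 1
    abel
  exact h1 w hw

/-- the class does not depend on the base: from `t` -/
theorem WF_to_tm (B : Blk 𝒟 u t t' W I U d p) {x y : L} (hxy : ∀ k, x + y * d k ≠ 0)
    {z : (J → V) × (J → V)} (h : z ∈ WF 𝒟 t W I u) : z ∈ WF 𝒟 (tm t t' x y) W I u := by
  obtain ⟨r, hr, ⟨Γ, hΓ⟩, hn⟩ := h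
  obtain ⟨c, hc⟩ := relG_scal B hΓ
  obtain ⟨Γ', h1, -⟩ := relG_to_tm' hG hK B hxy hΓ hc
  exact ⟨r, hr, ⟨Γ', h1⟩, hn⟩

/-- the class does not depend on the base: from `x t + y t'`, where `D` is central -/
theorem WF_of_tm (B : Blk 𝒟 u t t' W I U d p) {x y : L} (hxy : ∀ k, x + y * d k ≠ 0)
    (hcen : ∀ Γ : End L V, (∀ w ∈ W, Γ w ∈ W) → (∀ w ∈ I, Γ w ∈ I) →
      (∀ v ∈ W, ∀ w ∈ W, 𝒟.q (Γ v) w = 𝒟.q v (Γ w)) →
      (∀ a, ∀ w ∈ W, Γ (Res 𝒟 (tm t t' x y) a w) - Res 𝒟 (tm t t' x y) a (Γ w) ∈ I) →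
      ∀ k, ∀ w ∈ U k, ∃ v ∈ U k, Γ w - v ∈ I)
    {z : (J → V) × (J → V)} (h : z ∈ WF 𝒟 (tm t t' x y) W I u) : z ∈ WF 𝒟 t W I u := by
  obtain ⟨r, hr, ⟨Γ, hΓ⟩, hn⟩ := h
  obtain ⟨Γ', h1, -⟩ := relG_of_tm hG hK B hxy hΓ (hcen Γ hΓ.mapW hΓ.mapI hΓ.sa hΓ.comm)
  exact ⟨r, hr, ⟨Γ', h1⟩, hn⟩

end base

end Vale.Agent.P182.H181
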